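import Vale.Agent.P050.O.H904.Num

set_option linter.all false

/-!
Dense targets, optimal order, module C5: the series.
-/

open MeasureTheory Finset

namespace Vale.Agent.P050.Opt

open Vale.Agent.P050 Vale.Agent.P050.Dense

namespace H904

section graph

variable {V : Type*} [Fintype V] [DecidableEq V]
variable {H : SimpleGraph V} [DecidableRel H.Adj]

theorem wk_length {a : V} {Λ : Finset V} : ∀ {j : ℕ} {L : List V}, L ∈ Wk H a Λ j → L.length = j := by
  intro j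
  induction j with
  | zero =>
    intro L hL
    rw [Wk, mem_singleton] at hL
    rw [hL]; rfl
  | succ j ih =>
    intro L hL
    rw [Wk, mem_biUnion] at hL
    obtain ⟨L', hL', h⟩ := hL
    rw [mem_image] at h
    obtain ⟨w, _, rfl⟩ := h
    rw [List.length_cons, ih hL']

theorem shs_spec {Λ : Finset V} {j : ℕ} {q : V × List V × Option (Option V) × Finset V × Bool}
    (hq : q ∈ Shs H Λ j) : q.2.1.length = j ∧ Shape H q.1 q.2.1 q.2.2.1 q.2.2.2.1 q.2.2.2.2 := by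
  classical
  unfold Shs at hq
  rw [mem_biUnion] at hq
  obtain ⟨p, hp, h⟩ := hq
  rw [mem_sigma] at hp
  rw [mem_image] at h
  obtain ⟨r, hr, rfl⟩ := h
  rw [mem_filter] at hr
  exact ⟨wk_length hp.2, hr.2⟩

end graph

section kernel

variable {V : Type*} [Fintype V] [DecidableEq V] {Ω : Type*} [MeasurableSpace Ω]
variable {H : SimpleGraph V} [DecidableRel H.Adj]
variable (μ : Measure Ω) {U : Sym2 Ω → ℝ} {R : V → Ω → ℝ} {κ : ℝ}

theorem sqrt_le {x y l : ℝ} (hx : 0 ≤ x) (hy : 0 ≤ y) (hl : 0 < l) :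
    Real.sqrt (x * y) ≤ l / 2 * x + 1 / (2 * l) * y := by
  have h0 : 0 ≤ l / 2 * x + 1 / (2 * l) * y := by positivity
  rw [Real.sqrt_le_left h0]
  have h1 : (l / 2 * x + 1 / (2 * l) * y) ^ 2 - x * y = (l / 2 * x - 1 / (2 * l) * y) ^ 2 := by
    field_simp
    ring
  nlinarith [sq_nonneg (l / 2 * x - 1 / (2 * l) * y)]

theorem rr_nonneg (v : V) : 0 ≤ rr μ R v := integral_nonneg fun s => sq_nonneg _

open scoped Classical in
/-- the pointwise bound -/
theorem TT3_le [IsProbabilityMeasure μ] (hκ : 0 ≤ κ) {a : V} {L : List V}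
    {B : Option (Option V)} {S : Finset V} {b : Bool} (hs : Shape H a L B S b)
    (h2 : ∀ (a : V) (L : List V) (B : Option (Option V)) (S : Finset V), Shape H a L B S false →
      B ≠ some none → 3 * gk a L B S ≤ L.length + 2) {l : ℝ} (hl : 1 ≤ l) :
    TT3 μ U R κ a L B S b ≤ l / 2 * κ ^ L.length * (rr μ R a + rr μ R (hd a L)) +
      (if (∃ c, B = some (some c)) ∨ S.Nonempty then
        κ ^ (L.length + 1 - 2 * gk a L B S) * ck μ U (gk a L B S) *
        (1 / (2 * l) + if 3 * gk a L B S ≤ L.length + 2 then 1 else 0) else 0) := by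
  have hl0 : 0 < l := by linarith
  have hra := rr_nonneg μ (R := R) a
  have hrh := rr_nonneg μ (R := R) (hd a L)
  have hck := ck_nonneg μ (U := U) (gk a L B S)
  have hk1 : 0 ≤ κ ^ L.length := pow_nonneg hκ _
  have hk2 : 0 ≤ κ ^ (L.length + 1 - 2 * gk a L B S) := pow_nonneg hκ _
  set y := κ ^ (L.length + 1 - 2 * gk a L B S) * ck μ U (gk a L B S) with hy
  have hy0 : 0 ≤ y := mul_nonneg hk2 hck
  have hite : (0:ℝ) ≤ if 3 * gk a L B S ≤ L.length + 2 then 1 else 0 := by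
    split_ifs <;> norm_num
  have hsec : 1 / (2 * l) * y ≤ y * (1 / (2 * l) +
      if 3 * gk a L B S ≤ L.length + 2 then 1 else 0) := by
    have := mul_nonneg hy0 hite
    linarith
  have htwo := hs.two
  have hone := hs.one
  have hfst : 0 ≤ l / 2 * κ ^ L.length * (rr μ R a + rr μ R (hd a L)) := by positivity
  unfold TT3
  by_cases c1 : B = some none
  · by_cases c2 : b = true
    · -- two marks
      rw [if_pos ⟨c1, c2⟩]
      have h3 : κ ^ L.length * Real.sqrt (rr μ R a) * Real.sqrt (rr μ R (hd a L)) ≤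
          l / 2 * κ ^ L.length * (rr μ R a + rr μ R (hd a L)) := by
        have h4 : Real.sqrt (rr μ R a) * Real.sqrt (rr μ R (hd a L)) ≤
            1 / 2 * (rr μ R a + rr μ R (hd a L)) := by
          nlinarith [sq_nonneg (Real.sqrt (rr μ R a) - Real.sqrt (rr μ R (hd a L))),
            Real.sq_sqrt hra, Real.sq_sqrt hrh]
        have h5 := mul_le_mul_of_nonneg_left h4 hk1
        have h6 : κ ^ L.length * (1 / 2 * (rr μ R a + rr μ R (hd a L))) ≤
            l / 2 * κ ^ L.length * (rr μ R a + rr μ R (hd a L)) := by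
          have h7 : 0 ≤ κ ^ L.length * (rr μ R a + rr μ R (hd a L)) := by positivity
          nlinarith
        linarith
      refine h3.trans (le_add_of_nonneg_right ?_)
      split_ifs
      · linarith [hsec, mul_nonneg (by positivity : (0:ℝ) ≤ 1 / (2 * l)) hy0]
      · linarith [hsec, mul_nonneg (by positivity : (0:ℝ) ≤ 1 / (2 * l)) hy0]
      · exact le_refl _
    · -- mark at the first vertex
      rw [if_neg (fun h => c2 h.2), if_pos c1]
      have hne : B ≠ none := by rw [c1]; exact Option.some_ne_none _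
      rw [if_neg hne, if_neg c2] at htwo
      have hS : S.Nonempty := card_pos.1 (by omega)
      rw [if_pos (Or.inr hS)]
      have h3 := sqrt_le (mul_nonneg hra hk1) hy0 hl0
      refine h3.trans (add_le_add ?_ hsec)
      have h7 : 0 ≤ l / 2 * κ ^ L.length * rr μ R (hd a L) := by positivity
      linarith
  · have hcyc : ∀ (h : 1 ≤ S.card ∨ B ≠ none), (∃ c, B = some (some c)) ∨ S.Nonempty := by
      rintro (h | h)
      · exact Or.inr (card_pos.1 h)
      · left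
        match B, c1, h with
        | none, _, h => exact absurd rfl h
        | some none, c1, _ => exact absurd rfl c1
        | some (some c), _, _ => exact ⟨c, rfl⟩
    by_cases c2 : b = true
    · -- mark at the last vertex
      rw [if_neg (fun h => c1 h.1), if_neg c1, if_pos c2]
      have hC : (∃ c, B = some (some c)) ∨ S.Nonempty := by
        apply hcyc
        by_cases hB : B = none
        · rw [if_pos hB, if_pos c2] at htwo
          left; omega
        · exact Or.inr hB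
      rw [if_pos hC]
      have h3 := sqrt_le (mul_nonneg hrh hk1) hy0 hl0
      refine h3.trans (add_le_add ?_ hsec)
      have h7 : 0 ≤ l / 2 * κ ^ L.length * rr μ R a := by positivity
      linarith
    · -- no marks
      rw [if_neg (fun h => c1 h.1), if_neg c1, if_neg c2]
      have hC : (∃ c, B = some (some c)) ∨ S.Nonempty := by
        apply hcyc
        rw [if_neg c2] at hone
        left; omega
      have hb : b = false := by simpa using c2
      subst hb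
      have h3 := h2 a L B S hs c1
      rw [if_pos hC, if_pos h3]
      have h8 : 0 ≤ y * (1 / (2 * l)) := by positivity
      linarith

variable (H) in
/-- one value of the length -/
theorem inner (o : V → ℕ) [IsProbabilityMeasure μ] {D : ℕ} (hκ0 : 0 ≤ κ)
    (h1 : ∀ (a : V) (L : List V) (B : Option (Option V)) (S : Finset V) (b : Bool),
      Shape H a L B S b → ((∃ c, B = some (some c)) ∨ S.Nonempty) →
      2 ≤ gk a L B S ∧ 2 * gk a L B S ≤ L.length + 1)
    (h2 : ∀ (a : V) (L : List V) (B : Option (Option V)) (S : Finset V), Shape H a L B S false →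
      B ≠ some none → 3 * gk a L B S ≤ L.length + 2)
    (h3 : ∀ j k : ℕ, (((Shs H univ j).filter fun q =>
      ((∃ c, q.2.2.1 = some (some c)) ∨ q.2.2.2.1.Nonempty) ∧
      gk q.1 q.2.1 q.2.2.1 q.2.2.2.1 = k).card : ℝ) ≤
      ((j + 3) * 2 ^ (j + 2) : ℕ) * (4 * k * (Cyc H o k).card : ℕ) * (D : ℝ) ^ (j + 1 - 2 * k))
    (h4 : ∀ (j : ℕ) (f : V → ℝ), (∀ v, 0 ≤ f v) →
      (∑ q ∈ Shs H univ j, f q.1 ≤ ((j + 3) * 2 ^ (j + 2) : ℕ) * (D : ℝ) ^ j * ∑ v, f v) ∧
      ∑ q ∈ Shs H univ j, f (hd q.1 q.2.1) ≤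
        ((j + 3) * 2 ^ (j + 2) : ℕ) * (D : ℝ) ^ j * ∑ v, f v)
    (hx : 2 ^ 39 * (D * κ) ≤ 1) {j : ℕ} (hj : 1 ≤ j) (hjn : j < Fintype.card V) :
    8 * ∑ q ∈ Shs H univ j, 4 ^ (j + 1) *
        TT3 μ U R κ q.1 q.2.1 q.2.2.1 q.2.2.2.1 q.2.2.2.2 ≤
      1 / 4 * (1 / 2) ^ j * ∑ v, rr μ R v +
      ∑ k ∈ range (Fintype.card V), (if 2 ≤ k ∧ 2 * k ≤ j + 1 then
        1 / 4 * ((1 / 2) ^ k * (1 / 2) ^ (j + 1 - 2 * k)) *
          (((Cyc H o k).card : ℝ) * ck μ U k) else 0) := by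
  classical
  set n := Fintype.card V with hn
  set l : ℝ := 2 ^ 14 * 64 ^ j with hl
  have hl1 : 1 ≤ l := by
    rw [hl]
    have : (1:ℝ) ≤ 64 ^ j := one_le_pow₀ (by norm_num)
    linarith
  have hx0 : 0 ≤ (D:ℝ) * κ := by positivity
  set F : ℕ → ℝ := fun k => κ ^ (j + 1 - 2 * k) * ck μ U k *
    (1 / (2 * l) + if 3 * k ≤ j + 2 then 1 else 0) with hF
  have hF0 : ∀ k, 0 ≤ F k := by
    intro k
    have hck := ck_nonneg μ (U := U) k
    have hite : (0:ℝ) ≤ if 3 * k ≤ j + 2 then 1 else 0 := by split_ifs <;> norm_num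
    simp only [hF]
    positivity
  -- pointwise
  have hpt : ∀ q ∈ Shs H univ j, TT3 μ U R κ q.1 q.2.1 q.2.2.1 q.2.2.2.1 q.2.2.2.2 ≤
      l / 2 * κ ^ j * (rr μ R q.1 + rr μ R (hd q.1 q.2.1)) +
      (if (∃ c, q.2.2.1 = some (some c)) ∨ q.2.2.2.1.Nonempty then
        F (gk q.1 q.2.1 q.2.2.1 q.2.2.2.1) else 0) := by
    intro q hq
    obtain ⟨hlen, hs⟩ := shs_spec hq
    have := TT3_le μ (U := U) (R := R) hκ0 hs h2 hl1
    rw [hlen] at this
    exact this
  have hsum := sum_le_sum hpt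
  rw [sum_add_distrib, ← mul_sum, sum_add_distrib, ← sum_filter] at hsum
  obtain ⟨h41, h42⟩ := h4 j (rr μ R) (fun v => rr_nonneg μ v)
  -- the cycles
  set C := (Shs H univ j).filter (fun q => (∃ c, q.2.2.1 = some (some c)) ∨
    q.2.2.2.1.Nonempty) with hC
  have hmaps : ∀ q ∈ C, gk q.1 q.2.1 q.2.2.1 q.2.2.2.1 ∈ range n := by
    intro q hq
    rw [hC, mem_filter] at hq
    obtain ⟨hlen, hs⟩ := shs_spec hq.1
    obtain ⟨h5, h6⟩ := h1 _ _ _ _ _ hs hq.2
    rw [hlen] at h6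
    rw [mem_range]
    omega
  have hfib : ∑ q ∈ C, F (gk q.1 q.2.1 q.2.2.1 q.2.2.2.1) =
      ∑ k ∈ range n, ((C.filter fun q => gk q.1 q.2.1 q.2.2.1 q.2.2.2.1 = k).card : ℝ) * F k := by
    rw [← sum_fiberwise_of_maps_to hmaps]
    refine sum_congr rfl fun k _ => ?_
    rw [← nsmul_eq_mul, ← sum_const]
    refine sum_congr rfl fun q hq => ?_
    rw [mem_filter] at hq
    rw [hq.2]
  have hcard : ∀ k ∈ range n,
      8 * (4 ^ (j + 1) * (((C.filter fun q => gk q.1 q.2.1 q.2.2.1 q.2.2.2.1 = k).card : ℝ) *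
        F k)) ≤ (if 2 ≤ k ∧ 2 * k ≤ j + 1 then
        1 / 4 * ((1 / 2) ^ k * (1 / 2) ^ (j + 1 - 2 * k)) *
          (((Cyc H o k).card : ℝ) * ck μ U k) else 0) := by
    intro k _
    by_cases hk : 2 ≤ k ∧ 2 * k ≤ j + 1
    · rw [if_pos hk]
      have h5 : ((C.filter fun q => gk q.1 q.2.1 q.2.2.1 q.2.2.2.1 = k).card : ℝ) ≤
          ((j + 3) * 2 ^ (j + 2) : ℕ) * (4 * k * (Cyc H o k).card : ℕ) *
            (D : ℝ) ^ (j + 1 - 2 * k) := by
        rw [hC, filter_filter]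
        exact h3 j k
      have hck := ck_nonneg μ (U := U) k
      obtain ⟨r, hr⟩ : ∃ r, j + 1 = 2 * k + r := ⟨j + 1 - 2 * k, by omega⟩
      have hr' : j + 1 - 2 * k = r := by omega
      have h6 := numBC (x := D * κ) hk.1 hr hx0 hx
      have hcc : 0 ≤ ((Cyc H o k).card : ℝ) * ck μ U k := mul_nonneg (Nat.cast_nonneg _) hck
      have h7 := mul_le_mul_of_nonneg_right h6 hcc
      have h8 := mul_le_mul_of_nonneg_right h5 (hF0 k)
      rw [hr'] at h8 ⊢
      have h9 : 8 * (4 ^ (j + 1) * ((((j + 3) * 2 ^ (j + 2) : ℕ) : ℝ) *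
          ((4 * k * (Cyc H o k).card : ℕ) : ℝ) * (D : ℝ) ^ r * F k)) =
          8 * (4 ^ (j + 1) * (((j + 3 : ℕ) : ℝ) * 2 ^ (j + 2) * (4 * k) *
          ((D * κ) ^ r * (1 / (2 * (2 ^ 14 * 64 ^ j)) + if 3 * k ≤ j + 2 then 1 else 0)))) *
          (((Cyc H o k).card : ℝ) * ck μ U k) := by
        simp only [hF, hr', hl]
        push_cast
        rw [mul_pow]
        ring
      have h10 : (0:ℝ) < 8 * 4 ^ (j + 1) := by positivity
      calc 8 * (4 ^ (j + 1) * (((C.filter fun q => gk q.1 q.2.1 q.2.2.1 q.2.2.2.1 = k).card :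
            ℝ) * F k)) ≤ 8 * (4 ^ (j + 1) * ((((j + 3) * 2 ^ (j + 2) : ℕ) : ℝ) *
          ((4 * k * (Cyc H o k).card : ℕ) : ℝ) * (D : ℝ) ^ r * F k)) := by
            have := mul_le_mul_of_nonneg_left h8 h10.le
            linarith
        _ = _ := h9
        _ ≤ _ := h7
    · rw [if_neg hk]
      have : C.filter (fun q => gk q.1 q.2.1 q.2.2.1 q.2.2.2.1 = k) = ∅ := by
        rw [filter_eq_empty_iff]
        intro q hq hqk
        rw [hC, mem_filter] at hq
        obtain ⟨hlen, hs⟩ := shs_spec hq.1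
        obtain ⟨h5, h6⟩ := h1 _ _ _ _ _ hs hq.2
        rw [hlen] at h6
        rw [hqk] at h5 h6
        exact hk ⟨h5, h6⟩
      rw [this]
      simp
  have hA := numA (x := D * κ) hj hx0 hx
  have hS0 : 0 ≤ ∑ v, rr μ R v := sum_nonneg fun v _ => rr_nonneg μ v
  have hA' := mul_le_mul_of_nonneg_right hA hS0
  have hcyc := sum_le_sum hcard
  rw [← mul_sum, ← mul_sum, ← hfib] at hcyc
  have h10 : (0:ℝ) < 8 * 4 ^ (j + 1) := by positivity
  have hfirst : 8 * (4 ^ (j + 1) * (l / 2 * κ ^ j * (∑ q ∈ Shs H univ j, rr μ R q.1 +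
      ∑ q ∈ Shs H univ j, rr μ R (hd q.1 q.2.1)))) ≤ 1 / 4 * (1 / 2) ^ j * ∑ v, rr μ R v := by
    have hk : 0 ≤ l / 2 * κ ^ j := by positivity
    have h11 := mul_le_mul_of_nonneg_left (mul_le_mul_of_nonneg_left (add_le_add h41 h42) hk)
      h10.le
    have h12 : 8 * 4 ^ (j + 1) * (l / 2 * κ ^ j *
        ((((j + 3) * 2 ^ (j + 2) : ℕ) : ℝ) * (D : ℝ) ^ j * ∑ v, rr μ R v +
        (((j + 3) * 2 ^ (j + 2) : ℕ) : ℝ) * (D : ℝ) ^ j * ∑ v, rr μ R v)) =
        8 * (4 ^ (j + 1) * ((2 ^ 14 * 64 ^ j) * (((j + 3 : ℕ) : ℝ) * 2 ^ (j + 2) *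
          (D * κ) ^ j))) * ∑ v, rr μ R v := by
      rw [hl]
      push_cast
      rw [mul_pow]
      ring
    rw [h12] at h11
    linarith
  have hfin := mul_le_mul_of_nonneg_left hsum h10.le
  rw [← mul_sum]
  linarith

variable (H) in
/-- **C5**, from the modules C1 - C4 -/
theorem sum_le_of (o : V → ℕ) [IsProbabilityMeasure μ] {D : ℕ} (hκ0 : 0 ≤ κ)
    (h1 : ∀ (a : V) (L : List V) (B : Option (Option V)) (S : Finset V) (b : Bool),
      Shape H a L B S b → ((∃ c, B = some (some c)) ∨ S.Nonempty) →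
      2 ≤ gk a L B S ∧ 2 * gk a L B S ≤ L.length + 1)
    (h2 : ∀ (a : V) (L : List V) (B : Option (Option V)) (S : Finset V), Shape H a L B S false →
      B ≠ some none → 3 * gk a L B S ≤ L.length + 2)
    (h3 : ∀ j k : ℕ, (((Shs H univ j).filter fun q =>
      ((∃ c, q.2.2.1 = some (some c)) ∨ q.2.2.2.1.Nonempty) ∧
      gk q.1 q.2.1 q.2.2.1 q.2.2.2.1 = k).card : ℝ) ≤
      ((j + 3) * 2 ^ (j + 2) : ℕ) * (4 * k * (Cyc H o k).card : ℕ) * (D : ℝ) ^ (j + 1 - 2 * k))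
    (h4 : ∀ (j : ℕ) (f : V → ℝ), (∀ v, 0 ≤ f v) →
      (∑ q ∈ Shs H univ j, f q.1 ≤ ((j + 3) * 2 ^ (j + 2) : ℕ) * (D : ℝ) ^ j * ∑ v, f v) ∧
      ∑ q ∈ Shs H univ j, f (hd q.1 q.2.1) ≤
        ((j + 3) * 2 ^ (j + 2) : ℕ) * (D : ℝ) ^ j * ∑ v, f v)
    (hκ : 10 ^ 12 * D * κ ≤ 1) :
    8 * ∑ j ∈ range (Fintype.card V), ∑ q ∈ Shs H univ j, 4 ^ (j + 1) *
        TT3 μ U R κ q.1 q.2.1 q.2.2.1 q.2.2.2.1 q.2.2.2.2 ≤
      1 / 4 * ∑ v, rr μ R v +
      1 / 2 * ∑ k ∈ range (Fintype.card V), ((Cyc H o k).card : ℝ) *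
        ((1 / 2) ^ k * ck μ U k) := by
  classical
  set n := Fintype.card V with hn
  have hx0 : 0 ≤ (D:ℝ) * κ := by positivity
  have hx : 2 ^ 39 * ((D:ℝ) * κ) ≤ 1 := by nlinarith
  have hS0 : 0 ≤ ∑ v, rr μ R v := sum_nonneg fun v _ => rr_nonneg μ v
  have hj : ∀ j ∈ range n, 8 * ∑ q ∈ Shs H univ j, 4 ^ (j + 1) *
        TT3 μ U R κ q.1 q.2.1 q.2.2.1 q.2.2.2.1 q.2.2.2.2 ≤
      1 / 4 * ((if 1 ≤ j then (1 / 2 : ℝ) ^ j else 0) * ∑ v, rr μ R v) +
      ∑ k ∈ range n, 1 / 4 * ((1 / 2) ^ k * (if 2 * k ≤ j + 1 then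
        (1 / 2 : ℝ) ^ (j + 1 - 2 * k) else 0)) * (((Cyc H o k).card : ℝ) * ck μ U k) := by
    intro j hjn
    rw [mem_range] at hjn
    have hnn : ∀ k ∈ range n, 0 ≤ 1 / 4 * ((1 / 2) ^ k * (if 2 * k ≤ j + 1 then
        (1 / 2 : ℝ) ^ (j + 1 - 2 * k) else 0)) * (((Cyc H o k).card : ℝ) * ck μ U k) := by
      intro k _
      have hck := ck_nonneg μ (U := U) k
      have : (0:ℝ) ≤ if 2 * k ≤ j + 1 then (1 / 2 : ℝ) ^ (j + 1 - 2 * k) else 0 := by
        split_ifs <;> positivity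
      positivity
    rcases Nat.eq_zero_or_pos j with rfl | hj1
    · have hemp : Shs H (univ : Finset V) 0 = ∅ := by
        rw [eq_empty_iff_forall_notMem]
        intro q hq
        obtain ⟨hlen, hs⟩ := shs_spec hq
        exact hs.ne (List.length_eq_zero_iff.1 hlen)
      rw [hemp, sum_empty, mul_zero, if_neg (by norm_num), zero_mul, mul_zero, zero_add]
      exact sum_nonneg hnn
    · have h := inner H μ (U := U) (R := R) o hκ0 h1 h2 h3 h4 hx hj1 hjn
      refine h.trans (add_le_add ?_ (sum_le_sum fun k hk => ?_))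
      · rw [if_pos (show 1 ≤ j from hj1)]
        linarith
      · by_cases hk2 : 2 ≤ k ∧ 2 * k ≤ j + 1
        · rw [if_pos hk2, if_pos hk2.2]
        · rw [if_neg hk2]
          exact hnn k hk
  rw [mul_sum]
  refine (sum_le_sum hj).trans ?_
  rw [sum_add_distrib, ← mul_sum, ← sum_mul, sum_comm, mul_sum (range n) _ (1 / 2 : ℝ)]
  refine add_le_add ?_ (sum_le_sum fun k _ => ?_)
  · have h := mul_le_mul_of_nonneg_right (geo1 n) hS0
    linarith
  · have hck := ck_nonneg μ (U := U) k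
    rw [← sum_mul, ← mul_sum, ← mul_sum]
    have h := geo2 (2 * k) n
    have h0 : 0 ≤ 1 / 4 * (1 / 2 : ℝ) ^ k * (((Cyc H o k).card : ℝ) * ck μ U k) := by positivity
    have h' := mul_le_mul_of_nonneg_left h h0
    calc 1 / 4 * ((1 / 2) ^ k * ∑ j ∈ range n, (if 2 * k ≤ j + 1 then
          (1 / 2 : ℝ) ^ (j + 1 - 2 * k) else 0)) * (((Cyc H o k).card : ℝ) * ck μ U k)
        = 1 / 4 * (1 / 2 : ℝ) ^ k * (((Cyc H o k).card : ℝ) * ck μ U k) *
          ∑ j ∈ range n, (if 2 * k ≤ j + 1 then (1 / 2 : ℝ) ^ (j + 1 - 2 * k) else 0) := by ring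
      _ ≤ _ := h'
      _ = _ := by ring

end kernel

end H904

end Vale.Agent.P050.Opt
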