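import Vale.Agent.P050.O.H904.Top3

set_option linter.all false

/-!
Dense targets, strict inequality: graphs, from the equality case for finite kernels.
-/

open MeasureTheory Finset

namespace Vale.Agent.P050.Opt

open Vale.Agent.P050 Vale.Agent.P050.Dense

/-- the equality case for finite kernels of large mean: if `H` has a cycle, then equality holds
only for constant kernels -/
def KernelEqStmt : Prop :=
  ∀ (V X : Type) [Fintype V] [DecidableEq V] [Fintype X] [Nonempty X] (H : SimpleGraph V)
    [DecidableRel H.Adj] (D : ℕ), H.IsBipartite → ¬ H.IsAcyclic → (∀ v, H.degree v ≤ D) →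
    ∀ (W : X → X → ℝ) (hs : ∀ x y, W x y = W y x), (∀ x y, 0 ≤ W x y) → (∀ x y, W x y ≤ 1) →
      1 - 1 / (10 ^ 15 * (D:ℝ)) ≤ pden W →
      tden H W hs = pden W ^ H.edgeFinset.card → ∀ x y, W x y = pden W

namespace H904

theorem radius_lt (D : ℕ) : 1 / (10 ^ 15 * (D:ℝ)) < 1 := by
  rcases Nat.eq_zero_or_pos D with h | hD1
  · subst h; norm_num
  · have hDpos : (1:ℝ) ≤ D := by exact_mod_cast hD1
    rw [div_lt_one (by positivity)]
    nlinarith

/-- **strict inequality for graphs** -/
theorem graph_strict_of (hk : KernelEqStmt) {V X : Type} [Finite V] [Finite X] [Nonempty X]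
    (H : SimpleGraph V) (G : SimpleGraph X) (hH : H.IsBipartite) (hc : ¬ H.IsAcyclic) (D : ℕ)
    (hdeg : ∀ v, (H.neighborSet v).ncard ≤ D)
    (hp : 1 - 1 / (10 ^ 15 * (D:ℝ)) ≤ edgeDensity G) :
    edgeDensity G ^ Nat.card H.edgeSet < homDensity H G := by
  classical
  refine lt_of_le_of_ne (dense_graph3 H G hH D hdeg hp) fun heq => ?_
  have := Fintype.ofFinite V
  have := Fintype.ofFinite X
  have hdeg' : ∀ v, H.degree v ≤ D := by
    intro v
    have := hdeg v
    rw [Set.ncard_eq_toFinset_card'] at this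
    rwa [← SimpleGraph.card_neighborFinset_eq_degree]
  have h1 : tden H (adjK G) (adjK_symm G) = pden (adjK G) ^ H.edgeFinset.card := by
    rw [tden_adjK, pden_adjK, ← heq, Nat.card_eq_fintype_card, ← SimpleGraph.edgeFinset_card]
  have h2 := hk V X H D hH hc hdeg' (adjK G) (adjK_symm G)
    (fun x y => by unfold adjK; split_ifs <;> norm_num)
    (fun x y => by unfold adjK; split_ifs <;> norm_num) (by rw [pden_adjK]; exact hp) h1
  obtain ⟨x⟩ := (inferInstance : Nonempty X)
  have h3 := h2 x x
  rw [pden_adjK, adjK, if_neg (G.loopless.irrefl x)] at h3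
  rw [← h3] at hp
  have := radius_lt D
  linarith

/-- scaling -/
theorem pden_smul {X : Type} [Fintype X] (c : ℝ) (W : X → X → ℝ) :
    pden (fun x y => c * W x y) = c * pden W := by
  unfold pden
  simp only [← mul_sum]
  rw [mul_div_assoc]

theorem tden_smul {V X : Type} [Fintype V] [DecidableEq V] [Fintype X] (H : SimpleGraph V)
    [DecidableRel H.Adj] (c : ℝ) (W : X → X → ℝ) (hs : ∀ x y, W x y = W y x)
    (hs' : ∀ x y, c * W x y = c * W y x) :
    tden H (fun x y => c * W x y) hs' = c ^ H.edgeFinset.card * tden H W hs := by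
  unfold tden
  have hprod : ∀ z : V → X, ∏ e ∈ H.edgeFinset, ev (fun x y => c * W x y) hs' z e =
      c ^ H.edgeFinset.card * ∏ e ∈ H.edgeFinset, ev W hs z e := by
    intro z
    rw [← Finset.prod_const, ← Finset.prod_mul_distrib]
    refine Finset.prod_congr rfl fun e _ => ?_
    induction e with
    | h u v => rfl
  simp only [hprod]
  rw [← mul_sum, mul_div_assoc]

/-- kernels bounded from above by a constant close to their mean, equality case -/
theorem kernel_upper_eq_of (hk : KernelEqStmt) {V X : Type} [Fintype V] [DecidableEq V]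
    [Fintype X] [Nonempty X] (H : SimpleGraph V) [DecidableRel H.Adj] (hH : H.IsBipartite)
    (hc : ¬ H.IsAcyclic) {D : ℕ} (hD : ∀ v, H.degree v ≤ D) (W : X → X → ℝ)
    (hs : ∀ x y, W x y = W y x) (h0 : ∀ x y, 0 ≤ W x y)
    (h1 : ∀ x y, W x y ≤ (1 + 1 / (10 ^ 15 * (D:ℝ))) * pden W)
    (heq : tden H W hs = pden W ^ H.edgeFinset.card) : ∀ x y, W x y = pden W := by
  set c : ℝ := 1 / (10 ^ 15 * (D:ℝ)) with hcdef
  have hc0 : 0 ≤ c := by positivity
  have hp0 : 0 ≤ pden W := by
    unfold pden
    exact div_nonneg (Finset.sum_nonneg fun x _ => Finset.sum_nonneg fun y _ => h0 x y)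
      (by positivity)
  rcases hp0.eq_or_lt with hp | hp
  · intro x y
    have h2 := h1 x y
    rw [← hp, mul_zero] at h2
    rw [← hp]
    exact le_antisymm h2 (h0 x y)
  · set q : ℝ := (1 + c) * pden W with hq
    have hq0 : 0 < q := by positivity
    have hs' : ∀ x y, q⁻¹ * W x y = q⁻¹ * W y x := fun x y => by rw [hs x y]
    have hqp : q⁻¹ * pden W = 1 / (1 + c) := by
      rw [hq]; field_simp
    have h2 := hk V X H D hH hc hD (fun x y => q⁻¹ * W x y) hs'
      (fun x y => mul_nonneg (by positivity) (h0 x y))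
      (fun x y => by
        calc q⁻¹ * W x y ≤ q⁻¹ * q := mul_le_mul_of_nonneg_left (h1 x y) (by positivity)
          _ = 1 := inv_mul_cancel₀ hq0.ne')
      (by
        rw [pden_smul, hqp, le_div_iff₀ (by positivity)]
        nlinarith)
      (by rw [tden_smul H q⁻¹ W hs, pden_smul, heq, mul_pow])
    intro x y
    have h3 := h2 x y
    rw [pden_smul] at h3
    exact mul_left_cancel₀ (inv_ne_zero hq0.ne') h3

end H904

end Vale.Agent.P050.Opt
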