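import Vale.Agent.P050.O.H904.Meas3
import Vale.Agent.P050.O.H234.Red3

set_option linter.all false

/-!
Dense targets, optimal order: final statements.
-/

open MeasureTheory Finset

namespace Vale.Agent.P050.Opt

open Vale.Agent.P050 Vale.Agent.P050.Dense Vale.Agent.P050.H753

theorem rowsStmt : RowsStmt := by
  intro V _ _ H _ D hH hD1 hD n W hs hn h0 h1 hmin
  have : Nonempty (Fin n) := ⟨⟨0, hn⟩⟩
  have hDpos : (1:ℝ) ≤ D := by exact_mod_cast hD1
  refine rows3 H hH hD1 hD (θ := 1 / (10 ^ 13 * (D:ℝ))) (by positivity)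
    (le_of_eq (mul_one_div_cancel (by positivity))) W hs h0 h1 fun x => ?_
  rw [Fintype.card_fin]
  exact hmin x

/-- all finite kernels of large mean -/
theorem dense_kernel3 {V X : Type} [Fintype V] [DecidableEq V] [Fintype X] [Nonempty X]
    (H : SimpleGraph V) [DecidableRel H.Adj] (hH : H.IsBipartite) {D : ℕ}
    (hD : ∀ v, H.degree v ≤ D)
    (W : X → X → ℝ) (hs : ∀ x y, W x y = W y x) (h0 : ∀ x y, 0 ≤ W x y)
    (h1 : ∀ x y, W x y ≤ 1) (hp : 1 - 1 / (10 ^ 15 * (D:ℝ)) ≤ pden W) :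
    pden W ^ H.edgeFinset.card ≤ tden H W hs :=
  H904.kernel_of rowsStmt H hH hD W hs h0 h1 (by positivity) (H904.eps_ok D) hp

/-- all finite graphs of large edge density -/
theorem dense_graph3 {V X : Type} [Finite V] [Finite X] [Nonempty X] (H : SimpleGraph V)
    (G : SimpleGraph X) (hH : H.IsBipartite) (D : ℕ) (hdeg : ∀ v, (H.neighborSet v).ncard ≤ D)
    (hp : 1 - 1 / (10 ^ 15 * (D:ℝ)) ≤ edgeDensity G) :
    edgeDensity G ^ Nat.card H.edgeSet ≤ homDensity H G :=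
  H904.graph_of rowsStmt H G hH D hdeg hp

/-- measurable kernels bounded from above by a constant close to their mean -/
theorem dense_measurable3 {V Ω : Type} [Fintype V] [DecidableEq V] [MeasurableSpace Ω]
    (H : SimpleGraph V) [DecidableRel H.Adj] (hH : H.IsBipartite) (μ : Measure Ω)
    [IsProbabilityMeasure μ] (W : Ω → Ω → ℝ) (hW : ∀ s t, W s t = W t s)
    (hm : Measurable (Function.uncurry W)) {p : ℝ} (hp : 0 < p) {D : ℕ}
    (hD : ∀ v, H.degree v ≤ D) (hint : ∫ s, ∫ t, W s t ∂μ ∂μ = p)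
    (hbd : ∀ᵐ z ∂(μ.prod μ), 0 ≤ W z.1 z.2 ∧
      W z.1 z.2 ≤ (1 + 1 / (10 ^ 15 * (D:ℝ))) * p) :
    p ^ H.edgeFinset.card ≤ kernelDensity μ H W hW :=
  H904.measurable_of rowsStmt H hH μ W hW hm hp hD hint hbd

end Vale.Agent.P050.Opt
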