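import Vale.Agent.P050.R2.H111.Rows3
import Vale.Agent.P050.R3.H904.ToGraph

set_option linter.all false

/-!
Dense targets, optimal order: kernels and graphs of edge density at least `1 - c / D`,
from the case of kernels with all row averages close to `1`.
-/

open MeasureTheory Finset

namespace Vale.Agent.P050.Opt

open Vale.Agent.P050 Vale.Agent.P050.Dense

/-- the inequality for all finite kernels with all row averages at least `1 - 1 / (10 ^ 13 D)` -/
def RowsStmt : Prop :=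
  ∀ (V : Type) [Fintype V] [DecidableEq V] (H : SimpleGraph V) [DecidableRel H.Adj] (D : ℕ),
    H.IsBipartite → 1 ≤ D → (∀ v, H.degree v ≤ D) →
    ∀ (n : ℕ) (W : Fin n → Fin n → ℝ) (hs : ∀ x y, W x y = W y x), 0 < n →
      (∀ x y, 0 ≤ W x y) → (∀ x y, W x y ≤ 1) →
      (∀ x, (1 - 1 / (10 ^ 13 * (D:ℝ))) * n ≤ ∑ y, W x y) →
      pden W ^ H.edgeFinset.card ≤ tden H W hs

namespace H904

theorem edgeFinset_empty {V : Type} [Fintype V] [DecidableEq V] (H : SimpleGraph V)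
    [DecidableRel H.Adj] (h : ∀ v, H.degree v ≤ 0) : H.edgeFinset = ∅ := by
  rw [Finset.eq_empty_iff_forall_notMem]
  intro e he
  induction e using Sym2.ind with
  | _ u v =>
    rw [SimpleGraph.mem_edgeFinset, SimpleGraph.mem_edgeSet] at he
    have h1 : 0 < H.degree u := (SimpleGraph.degree_pos_iff_exists_adj _ _).2 ⟨v, he⟩
    have := h u
    omega

theorem kernel_of (hr : RowsStmt) {V X : Type} [Fintype V] [DecidableEq V] [Fintype X] [Nonempty X]
    (H : SimpleGraph V) [DecidableRel H.Adj] (hH : H.IsBipartite) {D : ℕ}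
    (hD : ∀ v, H.degree v ≤ D)
    (W : X → X → ℝ) (hs : ∀ x y, W x y = W y x) (h0 : ∀ x y, 0 ≤ W x y)
    (h1 : ∀ x y, W x y ≤ 1) {ε : ℝ} (hε0 : 0 ≤ ε) (hε : ε * (17 * 10 ^ 13 * (D:ℝ)) ≤ 1)
    (hp : 1 - ε ≤ pden W) :
    pden W ^ H.edgeFinset.card ≤ tden H W hs := by
  classical
  rcases Nat.eq_zero_or_pos D with h | hD1
  · have he : H.edgeFinset = ∅ := edgeFinset_empty H (fun v => h ▸ hD v)
    unfold tden
    rw [he]
    simp only [Finset.card_empty, pow_zero, Finset.prod_empty, Finset.sum_const, nsmul_eq_mul,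
      mul_one]
    rw [Finset.card_univ, Fintype.card_fun]
    push_cast
    rw [div_self]
    positivity
  · have hDpos : (1:ℝ) ≤ D := by exact_mod_cast hD1
    refine remove_rows3 H hH hD (θ := 1 / (10 ^ 13 * (D:ℝ))) (ε := ε) hε0 ?_ ?_ ?_ W hs h0 h1 hp
    · rw [le_div_iff₀ (by positivity)]
      calc 17 * ε * (10 ^ 13 * (D:ℝ)) = ε * (17 * 10 ^ 13 * (D:ℝ)) := by ring
        _ ≤ 1 := hε
    · refine le_trans ?_ hε
      have h5 : 128 * (D:ℝ) ≤ 17 * 10 ^ 13 * (D:ℝ) := by nlinarith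
      calc 128 * (D:ℝ) * ε = ε * (128 * (D:ℝ)) := by ring
        _ ≤ ε * (17 * 10 ^ 13 * (D:ℝ)) := mul_le_mul_of_nonneg_left h5 hε0
    · intro n W' hs' hn' h0' h1' hr'
      exact hr V H D hH hD1 hD n W' hs' hn' h0' h1' hr'

theorem eps_ok (D : ℕ) : 1 / (10 ^ 15 * (D:ℝ)) * (17 * 10 ^ 13 * (D:ℝ)) ≤ 1 := by
  rcases Nat.eq_zero_or_pos D with h | hD1
  · subst h; norm_num
  · have hDpos : (1:ℝ) ≤ D := by exact_mod_cast hD1
    rw [div_mul_eq_mul_div, div_le_one (by positivity)]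
    nlinarith

theorem graph_of (hr : RowsStmt) {V X : Type} [Finite V] [Finite X] [Nonempty X]
    (H : SimpleGraph V) (G : SimpleGraph X) (hH : H.IsBipartite) (D : ℕ)
    (hdeg : ∀ v, (H.neighborSet v).ncard ≤ D)
    (hp : 1 - 1 / (10 ^ 15 * (D:ℝ)) ≤ edgeDensity G) :
    edgeDensity G ^ Nat.card H.edgeSet ≤ homDensity H G := by
  classical
  have := Fintype.ofFinite V
  refine graph_of_kernel H (fun n W hs hn h0 h1 hq => ?_) G hp
  have : Nonempty (Fin n) := ⟨⟨0, hn⟩⟩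
  refine kernel_of hr H hH (D := D) (fun v => ?_) W hs h0 h1 (by positivity) (eps_ok D) hq
  have := hdeg v
  rw [Set.ncard_eq_toFinset_card'] at this
  rwa [← SimpleGraph.card_neighborFinset_eq_degree]

end H904

end Vale.Agent.P050.Opt
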