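import Vale.Agent.P050.O.H904.Final3
import Vale.Agent.P050.R3.H904.Meas
import Vale.Agent.P050.H753.Comb

set_option linter.all false

/-!
Dense targets, optimal order: measurable kernels bounded from above by a constant close to their
mean.
-/

open MeasureTheory Finset

namespace Vale.Agent.P050.Opt

open Vale.Agent.P050 Vale.Agent.P050.Dense Vale.Agent.P050.H753

namespace H904

theorem measurable_of (hr : RowsStmt) {V Ω : Type} [Fintype V] [DecidableEq V] [MeasurableSpace Ω]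
    (H : SimpleGraph V) [DecidableRel H.Adj] (hH : H.IsBipartite) (μ : Measure Ω)
    [IsProbabilityMeasure μ] (W : Ω → Ω → ℝ) (hW : ∀ s t, W s t = W t s)
    (hm : Measurable (Function.uncurry W)) {p : ℝ} (hp : 0 < p) {D : ℕ}
    (hD : ∀ v, H.degree v ≤ D) (hint : ∫ s, ∫ t, W s t ∂μ ∂μ = p)
    (hbd : ∀ᵐ z ∂(μ.prod μ), 0 ≤ W z.1 z.2 ∧
      W z.1 z.2 ≤ (1 + 1 / (10 ^ 15 * (D:ℝ))) * p) :
    p ^ H.edgeFinset.card ≤ kernelDensity μ H W hW := by
  classical
  set c : ℝ := 1 / (10 ^ 15 * (D:ℝ)) with hc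
  have hc0 : 0 ≤ c := by positivity
  set q : ℝ := (1 + c) * p with hq
  have hq0 : 0 < q := by positivity
  set W' : Ω → Ω → ℝ := fun s t => q⁻¹ * W s t with hW'
  have hs' : ∀ s t, W' s t = W' t s := fun s t => by simp only [hW', hW s t]
  have hint' : ∫ s, ∫ t, W' s t ∂μ ∂μ = q⁻¹ * p := by
    simp only [hW', integral_const_mul, hint]
  have hqp : q⁻¹ * p = 1 / (1 + c) := by
    rw [hq]; field_simp
  -- the finite theorem with a slightly larger radius
  obtain ⟨δ', hδ, hδ0, hδ'⟩ : ∃ δ' : ℝ, c < δ' ∧ 0 ≤ δ' ∧ δ' * (17 * 10 ^ 13 * (D:ℝ)) ≤ 1 := by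
    rcases Nat.eq_zero_or_pos D with h | hD1
    · refine ⟨1, ?_, zero_le_one, ?_⟩
      · rw [hc, h]; norm_num
      · rw [h]; norm_num
    · have hDpos : (1:ℝ) ≤ D := by exact_mod_cast hD1
      refine ⟨1 / (17 * 10 ^ 13 * (D:ℝ)), ?_, by positivity, ?_⟩
      · rw [hc]
        apply one_div_lt_one_div_of_lt (by positivity)
        nlinarith
      · rw [one_div, inv_mul_cancel₀ (by positivity)]
  have key := measurable_of_finite H μ hδ
    (fun n W₁ hs₁ hn h0 h1 hp₁ => by
      have : Nonempty (Fin n) := ⟨⟨0, hn⟩⟩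
      exact kernel_of hr H hH hD W₁ hs₁ h0 h1 hδ0 hδ' hp₁)
    W' hs' (hm.const_mul q⁻¹)
    (by
      filter_upwards [hbd] with z hz
      refine ⟨mul_nonneg (by positivity) hz.1, ?_⟩
      calc q⁻¹ * W z.1 z.2 ≤ q⁻¹ * q := mul_le_mul_of_nonneg_left hz.2 (by positivity)
        _ = 1 := inv_mul_cancel₀ hq0.ne')
    (by
      rw [hint', hqp, le_div_iff₀ (by positivity)]
      nlinarith)
  rw [hint'] at key
  have hprod : ∀ x : V → Ω, ∏ e ∈ H.edgeFinset, ev W' hs' x e =
      (q⁻¹) ^ H.edgeFinset.card * ∏ e ∈ H.edgeFinset, ev W hW x e := by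
    intro x
    rw [← Finset.prod_const, ← Finset.prod_mul_distrib]
    refine Finset.prod_congr rfl fun e _ => ?_
    induction e with
    | h u v => rfl
  simp only [hprod] at key
  rw [integral_const_mul, mul_pow] at key
  have hqm : 0 < (q⁻¹) ^ H.edgeFinset.card := by positivity
  exact le_of_mul_le_mul_left key hqm

end H904

end Vale.Agent.P050.Opt
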