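import Vale.Agent.P050.O.H300.Defs

set_option linter.all false

/-!
Dense targets, optimal order, module C5: numerical inequalities.
-/

open MeasureTheory Finset

namespace Vale.Agent.P050.Opt.H904

theorem geo (m N : ℕ) : ∑ i ∈ range N, (if m ≤ i then (1 / 2 : ℝ) ^ (i - m) else 0) ≤
    2 - 2 * (if m ≤ N then (1 / 2 : ℝ) ^ (N - m) else 1) := by
  induction N with
  | zero =>
    by_cases h : m ≤ 0
    · have : m = 0 := by omega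
      subst this
      simp
    · simp [h]
  | succ N ih =>
    rw [sum_range_succ]
    by_cases h : m ≤ N
    · rw [if_pos h, if_pos (h.trans (Nat.le_succ N)), Nat.succ_sub h, pow_succ]
      rw [if_pos h] at ih
      linarith
    · rw [if_neg h]
      rw [if_neg h] at ih
      by_cases h' : m ≤ N + 1
      · have : m = N + 1 := by omega
        subst this
        simp only [le_refl, if_true, Nat.sub_self, pow_zero]
        linarith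
      · rw [if_neg h']
        linarith

theorem geo_le (m N : ℕ) : ∑ i ∈ range N, (if m ≤ i then (1 / 2 : ℝ) ^ (i - m) else 0) ≤ 2 := by
  refine (geo m N).trans ?_
  have : 0 ≤ (if m ≤ N then (1 / 2 : ℝ) ^ (N - m) else 1) := by split_ifs <;> positivity
  linarith

theorem geo1 (N : ℕ) : ∑ j ∈ range N, (if 1 ≤ j then (1 / 2 : ℝ) ^ j else 0) ≤ 1 := by
  have h := geo_le 1 N
  have h2 : ∀ j ∈ range N, (if 1 ≤ j then (1 / 2 : ℝ) ^ j else 0) =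
      1 / 2 * (if 1 ≤ j then (1 / 2 : ℝ) ^ (j - 1) else 0) := by
    intro j _
    split_ifs with h3
    · obtain ⟨i, rfl⟩ : ∃ i, j = i + 1 := ⟨j - 1, by omega⟩
      rw [Nat.add_sub_cancel, pow_succ]
      ring
    · ring
  rw [sum_congr rfl h2, ← mul_sum]
  linarith

theorem geo2 (m N : ℕ) :
    ∑ j ∈ range N, (if m ≤ j + 1 then (1 / 2 : ℝ) ^ (j + 1 - m) else 0) ≤ 2 := by
  have h := geo_le m (N + 1)
  rw [sum_range_succ'] at h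
  have : 0 ≤ (if m ≤ 0 then (1 / 2 : ℝ) ^ (0 - m) else 0) := by split_ifs <;> positivity
  linarith

theorem j3 {j : ℕ} (hj : 1 ≤ j) : ((j + 3 : ℕ) : ℝ) ≤ 2 ^ (j + 1) := by
  have : j + 3 ≤ 2 ^ (j + 1) := by
    induction j, hj using Nat.le_induction with
    | base => norm_num
    | succ n hn ih => rw [pow_succ]; omega
  exact_mod_cast this

/-- the coefficient of the sum of the second moments -/
theorem numA {j : ℕ} (hj : 1 ≤ j) {x : ℝ} (hx0 : 0 ≤ x) (hx : 2 ^ 39 * x ≤ 1) :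
    8 * (4 ^ (j + 1) * ((2 ^ 14 * 64 ^ j) * (((j + 3 : ℕ) : ℝ) * 2 ^ (j + 2) * x ^ j))) ≤
      1 / 4 * (1 / 2) ^ j := by
  have h1 := j3 hj
  have hx1 : x ≤ 1 / 2 ^ 39 := by
    rw [le_div_iff₀ (by positivity)]; linarith
  have h2 : x ^ j ≤ (1 / 2 ^ 39) ^ j := pow_le_pow_left₀ hx0 hx1 j
  have h3 : ((1 : ℝ) / 2 ^ 28) ^ j ≤ 1 / 2 ^ 28 := by
    have := pow_le_pow_of_le_one (a := (1 : ℝ) / 2 ^ 28) (by positivity) (by norm_num) hj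
    simpa using this
  calc 8 * (4 ^ (j + 1) * ((2 ^ 14 * 64 ^ j) * (((j + 3 : ℕ) : ℝ) * 2 ^ (j + 2) * x ^ j)))
      ≤ 8 * (4 ^ (j + 1) * ((2 ^ 14 * 64 ^ j) * (2 ^ (j + 1) * 2 ^ (j + 2) *
        (1 / 2 ^ 39) ^ j))) := by gcongr
    _ = 2 ^ 22 * ((4 * 64 * 2 * 2 * (1 / 2 ^ 39)) ^ j) := by
        rw [mul_pow, mul_pow, mul_pow, mul_pow]; ring
    _ = 2 ^ 22 * ((1 / 2 ^ 28) ^ j * (1 / 2) ^ j) := by
        rw [← mul_pow]; norm_num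
    _ ≤ 2 ^ 22 * (1 / 2 ^ 28 * (1 / 2) ^ j) := by gcongr
    _ ≤ 1 / 4 * (1 / 2) ^ j := by
        have : (0:ℝ) ≤ (1 / 2) ^ j := by positivity
        linarith

theorem t0 {j g r : ℕ} (hg : 2 ≤ g) (hj : j + 1 = 2 * g + r) {y : ℝ} (hy : 0 ≤ y) :
    8 * (4 ^ (j + 1) * (((j + 3 : ℕ) : ℝ) * 2 ^ (j + 2) * (4 * g) * y)) ≤
      64 * 512 ^ g * 16 ^ r * y := by
  have h1 := j3 (j := j) (by omega)
  have h2 : (g : ℝ) ≤ 2 ^ g := by exact_mod_cast Nat.lt_two_pow_self.le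
  have e1 : (4:ℝ) ^ (j + 1) = 16 ^ g * 4 ^ r := by
    rw [hj, pow_add, pow_mul]; norm_num
  have e2 : (2:ℝ) ^ (j + 1) = 4 ^ g * 2 ^ r := by
    rw [hj, pow_add, pow_mul]; norm_num
  have e3 : (2:ℝ) ^ (j + 2) = 2 * (4 ^ g * 2 ^ r) := by
    rw [← e2]; ring
  calc 8 * (4 ^ (j + 1) * (((j + 3 : ℕ) : ℝ) * 2 ^ (j + 2) * (4 * g) * y))
      ≤ 8 * (4 ^ (j + 1) * (2 ^ (j + 1) * 2 ^ (j + 2) * (4 * 2 ^ g) * y)) := by gcongr
    _ = 64 * ((16 * 4 * 4 * 2) ^ g) * ((4 * 2 * 2) ^ r) * y := by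
        rw [e1, e3, e2, mul_pow, mul_pow, mul_pow, mul_pow, mul_pow]; ring
    _ = _ := by norm_num

theorem numB {j g r : ℕ} (hg : 2 ≤ g) (hj : j + 1 = 2 * g + r) {x : ℝ} (hx0 : 0 ≤ x)
    (hx : 2 ^ 39 * x ≤ 1) :
    8 * (4 ^ (j + 1) * (((j + 3 : ℕ) : ℝ) * 2 ^ (j + 2) * (4 * g) *
      (x ^ r * (1 / (2 * (2 ^ 14 * 64 ^ j)))))) ≤ 1 / 8 * ((1 / 2) ^ g * (1 / 2) ^ r) := by
  refine (t0 hg hj (by positivity)).trans ?_
  have hx1 : x ≤ 1 := by linarith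
  have h2 : x ^ r ≤ 1 := pow_le_one₀ hx0 hx1
  have e1 : (64:ℝ) ^ j = 4096 ^ g * 64 ^ r / 64 := by
    have : (64:ℝ) ^ (j + 1) = 4096 ^ g * 64 ^ r := by
      rw [hj, pow_add, pow_mul]; norm_num
    rw [← this]; ring
  have e2 : (64:ℝ) * 512 ^ g * 16 ^ r * (1 * (1 / (2 * (2 ^ 14 * 64 ^ j)))) =
      1 / 8 * ((1 / 8) ^ g * (1 / 4) ^ r) := by
    rw [e1]
    have h1 : (4096:ℝ) ^ g = 512 ^ g * 8 ^ g := by rw [← mul_pow]; norm_num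
    have h2 : (64:ℝ) ^ r = 16 ^ r * 4 ^ r := by rw [← mul_pow]; norm_num
    rw [h1, h2, div_pow, div_pow, one_pow, one_pow]
    field_simp
    norm_num
  calc (64:ℝ) * 512 ^ g * 16 ^ r * (x ^ r * (1 / (2 * (2 ^ 14 * 64 ^ j))))
      ≤ 64 * 512 ^ g * 16 ^ r * (1 * (1 / (2 * (2 ^ 14 * 64 ^ j)))) := by gcongr
    _ = _ := e2
    _ ≤ _ := by gcongr <;> norm_num

theorem numC {j g r : ℕ} (hg : 2 ≤ g) (hj : j + 1 = 2 * g + r) (hgr : 3 * g ≤ j + 2) {x : ℝ}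
    (hx0 : 0 ≤ x) (hx : 2 ^ 39 * x ≤ 1) :
    8 * (4 ^ (j + 1) * (((j + 3 : ℕ) : ℝ) * 2 ^ (j + 2) * (4 * g) * x ^ r)) ≤
      1 / 8 * ((1 / 2) ^ g * (1 / 2) ^ r) := by
  refine (t0 hg hj (by positivity)).trans ?_
  have hx1 : x ≤ 1 / 2 ^ 39 := by
    rw [le_div_iff₀ (by positivity)]; linarith
  have hr : 1 ≤ r := by omega
  have hgr' : g ≤ r + 1 := by omega
  have h2 : x ^ r ≤ (1 / 2 ^ 39) ^ r := pow_le_pow_left₀ hx0 hx1 r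
  have h3 : (1024:ℝ) ^ g ≤ 1024 ^ (r + 1) := pow_le_pow_right₀ (by norm_num) hgr'
  have h4 : ((1 : ℝ) / 2 ^ 24) ^ r ≤ 1 / 2 ^ 24 := by
    have := pow_le_pow_of_le_one (a := (1 : ℝ) / 2 ^ 24) (by positivity) (by norm_num) hr
    simpa using this
  calc (64:ℝ) * 512 ^ g * 16 ^ r * x ^ r ≤ 64 * 512 ^ g * 16 ^ r * (1 / 2 ^ 39) ^ r := by gcongr
    _ = 64 * 1024 ^ g * ((16 * 2 * (1 / 2 ^ 39)) ^ r) * ((1 / 2) ^ g * (1 / 2) ^ r) := by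
        have e1 : (1024:ℝ) ^ g = 512 ^ g * 2 ^ g := by rw [← mul_pow]; norm_num
        have e2 : (2:ℝ) ^ g * (1 / 2) ^ g = 1 := by rw [← mul_pow]; norm_num
        have e3 : (2:ℝ) ^ r * (1 / 2) ^ r = 1 := by rw [← mul_pow]; norm_num
        rw [e1, mul_pow, mul_pow]
        calc (64:ℝ) * 512 ^ g * 16 ^ r * (1 / 2 ^ 39) ^ r =
            64 * 512 ^ g * 16 ^ r * (1 / 2 ^ 39) ^ r * 1 * 1 := by ring
          _ = 64 * 512 ^ g * 16 ^ r * (1 / 2 ^ 39) ^ r * (2 ^ g * (1 / 2) ^ g) *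
              (2 ^ r * (1 / 2) ^ r) := by rw [e2, e3]
          _ = _ := by ring
    _ ≤ 64 * 1024 ^ (r + 1) * ((16 * 2 * (1 / 2 ^ 39)) ^ r) * ((1 / 2) ^ g * (1 / 2) ^ r) := by
        gcongr
    _ = 2 ^ 16 * ((1 / 2 ^ 24) ^ r) * ((1 / 2) ^ g * (1 / 2) ^ r) := by
        have e1 : ((1:ℝ) / 2 ^ 24) ^ r = 1024 ^ r * (16 * 2 * (1 / 2 ^ 39)) ^ r := by
          rw [← mul_pow]; norm_num
        rw [e1, pow_succ]; ring
    _ ≤ 2 ^ 16 * (1 / 2 ^ 24) * ((1 / 2) ^ g * (1 / 2) ^ r) := by gcongr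
    _ ≤ 1 / 8 * ((1 / 2) ^ g * (1 / 2) ^ r) := by gcongr; norm_num

/-- both together -/
theorem numBC {j g r : ℕ} (hg : 2 ≤ g) (hj : j + 1 = 2 * g + r) {x : ℝ} (hx0 : 0 ≤ x)
    (hx : 2 ^ 39 * x ≤ 1) :
    8 * (4 ^ (j + 1) * (((j + 3 : ℕ) : ℝ) * 2 ^ (j + 2) * (4 * g) *
      (x ^ r * (1 / (2 * (2 ^ 14 * 64 ^ j)) + if 3 * g ≤ j + 2 then 1 else 0)))) ≤
      1 / 4 * ((1 / 2) ^ g * (1 / 2) ^ r) := by
  have hB := numB hg hj hx0 hx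
  have h0 : (0:ℝ) ≤ (1 / 2) ^ g * (1 / 2) ^ r := by positivity
  split_ifs with h
  · have hC := numC hg hj h hx0 hx
    have e : (x ^ r * (1 / (2 * (2 ^ 14 * 64 ^ j)) + 1)) =
      (x ^ r * (1 / (2 * (2 ^ 14 * 64 ^ j)))) + x ^ r := by ring
    rw [e]
    calc _ = 8 * (4 ^ (j + 1) * (((j + 3 : ℕ) : ℝ) * 2 ^ (j + 2) * (4 * g) *
      (x ^ r * (1 / (2 * (2 ^ 14 * 64 ^ j)))))) + 8 * (4 ^ (j + 1) *
        (((j + 3 : ℕ) : ℝ) * 2 ^ (j + 2) * (4 * g) * x ^ r)) := by ring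
      _ ≤ 1 / 8 * ((1 / 2) ^ g * (1 / 2) ^ r) + 1 / 8 * ((1 / 2) ^ g * (1 / 2) ^ r) :=
        add_le_add hB hC
      _ = _ := by ring
  · rw [add_zero]
    linarith

end Vale.Agent.P050.Opt.H904
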