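import Vale.Agent.P050.O.H904.Strict
import Vale.Agent.P050.O.H111.Eq3

set_option linter.all false

/-!
Dense targets: strict inequality for bipartite graphs with a cycle.
-/

open Finset

namespace Vale.Agent.P050.Opt

open Vale.Agent.P050 Vale.Agent.P050.Dense

/-- **strict inequality for graphs** -/
theorem dense_graph3_strict {V X : Type} [Finite V] [Finite X] [Nonempty X] (H : SimpleGraph V)
    (G : SimpleGraph X) (hH : H.IsBipartite) (hc : ¬ H.IsAcyclic) (D : ℕ)
    (hdeg : ∀ v, (H.neighborSet v).ncard ≤ D)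
    (hp : 1 - 1 / (10 ^ 15 * (D:ℝ)) ≤ edgeDensity G) :
    edgeDensity G ^ Nat.card H.edgeSet < homDensity H G :=
  H904.graph_strict_of kernelEqStmt H G hH hc D hdeg hp

/-- kernels bounded from above by a constant close to their mean: equality only for constant
kernels -/
theorem dense_kernel_upper_eq {V X : Type} [Fintype V] [DecidableEq V] [Fintype X] [Nonempty X]
    (H : SimpleGraph V) [DecidableRel H.Adj] (hH : H.IsBipartite) (hc : ¬ H.IsAcyclic) {D : ℕ}
    (hD : ∀ v, H.degree v ≤ D) (W : X → X → ℝ) (hs : ∀ x y, W x y = W y x)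
    (h0 : ∀ x y, 0 ≤ W x y) (h1 : ∀ x y, W x y ≤ (1 + 1 / (10 ^ 15 * (D:ℝ))) * pden W)
    (heq : tden H W hs = pden W ^ H.edgeFinset.card) : ∀ x y, W x y = pden W :=
  H904.kernel_upper_eq_of kernelEqStmt H hH hc hD W hs h0 h1 heq

end Vale.Agent.P050.Opt
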